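import Vale.Agent.P176.Main

/-!
The little finitistic dimension conjecture fails over every field of characteristic zero.
-/

namespace Vale.Agent.Results.P176.FinitisticDimFalse

open CategoryTheory

/-- Over every field of characteristic zero there is a finite-dimensional algebra `A` with finitely
generated modules of finite but arbitrarily large projective dimension: the little finitistic
dimension of `A` is infinite. -/
theorem result : ∀ (K : Type) [Field K] [CharZero K],
    ∃ (A : Type) (_ : Ring A) (_ : Algebra K A), FiniteDimensional K A ∧
      ∀ n : ℕ, ∃ M : ModuleCat.{0} A, Module.Finite A M ∧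
        (∃ d, HasProjectiveDimensionLT M d) ∧ ¬ HasProjectiveDimensionLT M n := by
  intro K _ _
  exact ⟨Vale.Agent.P176.Alg K, inferInstance, inferInstance, Vale.Agent.P176.Alg_finite K,
    Vale.Agent.P176.findim_unbounded⟩

end Vale.Agent.Results.P176.FinitisticDimFalse
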